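import Vale.Agent.P225.Metric.CapProfile.Model

/-!
P225, module B: the cut off cap profile compared with its model, and the curvature inequalities.
-/

noncomputable section

namespace Vale.Agent.P225

open scoped ContDiff

namespace Cap

open Real Set MeasureTheory

variable {δ L ε : ℝ}

/-! ### The profile -/

/-- `a'`. -/
def cA1 (δ L r : ℝ) : ℝ := 1 - (1 + capSlack) * cPrim (fun u => cChi δ L u * cPsi u) r

/-- `b'`. -/
def cB1 (δ L : ℝ) : ℝ → ℝ := cPrim fun u => cChi δ L u * cPhi u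

/-- `a`. -/
def cA (δ L r : ℝ) : ℝ := cPrim (cA1 δ L) r

/-- `b`. -/
def cB (δ L r : ℝ) : ℝ := 1 + cPrim (cB1 δ L) r

theorem contDiff_A1 : ContDiff ℝ ∞ (cA1 δ L) :=
  contDiff_const.sub (contDiff_const.mul (contDiff_prim (contDiff_chi.mul contDiff_psi)))

theorem contDiff_B1 : ContDiff ℝ ∞ (cB1 δ L) := contDiff_prim (contDiff_chi.mul contDiff_phi)

theorem hasDerivAt_A (r : ℝ) : HasDerivAt (cA δ L) (cA1 δ L r) r :=
  hasDerivAt_prim contDiff_A1.continuous r

theorem hasDerivAt_B (r : ℝ) : HasDerivAt (cB δ L) (cB1 δ L r) r :=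
  (hasDerivAt_prim contDiff_B1.continuous r).const_add 1

theorem hasDerivAt_A1 (r : ℝ) :
    HasDerivAt (cA1 δ L) (-((1 + capSlack) * (cChi δ L r * cPsi r))) r :=
  ((hasDerivAt_prim (contDiff_chi.mul contDiff_psi).continuous r).const_mul _).const_sub 1

theorem hasDerivAt_B1 (r : ℝ) : HasDerivAt (cB1 δ L) (cChi δ L r * cPhi r) r :=
  hasDerivAt_prim (contDiff_chi.mul contDiff_phi).continuous r

theorem deriv_A : deriv (cA δ L) = cA1 δ L := funext fun r => (hasDerivAt_A r).deriv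

theorem deriv_B : deriv (cB δ L) = cB1 δ L := funext fun r => (hasDerivAt_B r).deriv

/-- Comparison of the profile with the model. -/
theorem compare (hp : Params δ L ε) {r : ℝ} (hr : 0 ≤ r) :
    (capP (cT r) ≤ cA1 δ L r ∧ cA1 δ L r ≤ capP (cT r) + 104 / 100 * ε) ∧
    (ck * sin (cT r) - ε ≤ cB1 δ L r ∧ cB1 δ L r ≤ ck * sin (cT r)) ∧
    (cM r ≤ cA δ L r ∧ cA δ L r ≤ cM r + 104 / 100 * ε * r) ∧
    ((cos (cT r))⁻¹ - ε * r ≤ cB δ L r ∧ cB δ L r ≤ (cos (cT r))⁻¹) := by
  have ha : ∀ t, 0 ≤ t →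
      capP (cT t) ≤ cA1 δ L t ∧ cA1 δ L t ≤ capP (cT t) + 104 / 100 * ε := fun t ht => by
    have he : ∀ u, HasDerivAt (fun u => (cA1 δ L u - capP (cT u)) / (1 + capSlack))
        ((1 - cChi δ L u) * cPsi u) u := fun u =>
      (((hasDerivAt_A1 u).sub (hasDerivAt_cP u)).div_const _).congr_deriv
        (by norm_num [capSlack]; ring)
    have := defect_bound hp he (by simp [cA1, prim_zero, cT, capP, capS])
      (fun u hu => psi_nonneg hu) (fun u _ => psi_le u) ht
    norm_num [capSlack] at this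
    constructor <;> linarith
  have hb : ∀ t, 0 ≤ t →
      ck * sin (cT t) - ε ≤ cB1 δ L t ∧ cB1 δ L t ≤ ck * sin (cT t) := fun t ht => by
    have he : ∀ u, HasDerivAt (fun u => ck * sin (cT u) - cB1 δ L u)
        ((1 - cChi δ L u) * cPhi u) u := fun u =>
      (((hasDerivAt_sinT u).const_mul ck).sub (hasDerivAt_B1 u)).congr_deriv
        (by rw [cPhi]; ring)
    have := defect_bound hp he (by simp [cB1, prim_zero, cT])
      (fun u _ => phi_nonneg u) (fun u _ => phi_le u) ht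
    constructor <;> linarith
  refine ⟨ha r hr, hb r hr, ⟨?_, ?_⟩, ?_, ?_⟩
  · have := mono_le hr (fun t => (hasDerivAt_A (δ := δ) (L := L) t).sub (hasDerivAt_cM t))
      fun t ht => by linarith [(ha t ht.1).1]
    simp [cA, prim_zero, cM, cT, capS] at this
    simpa [cA, prim_zero, cM, cT, capS] using this
  · have := mono_le hr (fun t => ((hasDerivAt_cM t).add
      ((hasDerivAt_id t).const_mul (104 / 100 * ε))).sub (hasDerivAt_A (δ := δ) (L := L) t))
      fun t ht => by linarith [(ha t ht.1).2]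
    simp [cA, prim_zero, cM, cT, capS] at this
    simp [cA, cM, cT, capS]
    linarith
  · have := mono_le hr (fun t => ((hasDerivAt_B (δ := δ) (L := L) t).add
      ((hasDerivAt_id t).const_mul ε)).sub (hasDerivAt_cBm t))
      fun t ht => by linarith [(hb t ht.1).1]
    simp [cB, prim_zero, cT] at this
    simp [cB, cT]
    linarith
  · have := mono_le hr (fun t => (hasDerivAt_cBm t).sub (hasDerivAt_B (δ := δ) (L := L) t))
      fun t ht => by linarith [(hb t ht.1).2]
    simp [cB, prim_zero, cT] at this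
    simp [cB, cT]
    linarith

theorem B1_nonneg {r : ℝ} (hr : 0 ≤ r) : 0 ≤ cB1 δ L r :=
  intervalIntegral.integral_nonneg hr fun u _ => mul_nonneg (chi_nonneg u) (phi_nonneg u)

theorem A1_le_one {r : ℝ} (hr : 0 ≤ r) : cA1 δ L r ≤ 1 := by
  have : 0 ≤ cPrim (fun u => cChi δ L u * cPsi u) r :=
    intervalIntegral.integral_nonneg hr fun u hu => mul_nonneg (chi_nonneg u) (psi_nonneg hu.1)
  have := mul_nonneg (show (0 : ℝ) ≤ 1 + capSlack by norm_num [capSlack]) this
  rw [cA1]; linarith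

theorem B_ge_one {r : ℝ} (hr : 0 ≤ r) : 1 ≤ cB δ L r := by
  have := intervalIntegral.integral_nonneg (μ := volume) hr
    fun u hu => B1_nonneg (δ := δ) (L := L) hu.1
  rw [cB, cPrim]; linarith

theorem A_le_self {r : ℝ} (hr : 0 ≤ r) : cA δ L r ≤ r := by
  have := mono_le hr (fun t => (hasDerivAt_id t).sub (hasDerivAt_A (δ := δ) (L := L) t))
    fun t ht => by linarith [A1_le_one (δ := δ) (L := L) ht.1]
  simp [cA, prim_zero] at this
  simpa [cA] using this

theorem ratio (hp : Params δ L ε) (hε : ε ≤ 1 / 10000) {r : ℝ} (hr : 0 < r) :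
    cA δ L r * ck ≤ (1 + 5 * ε) * capS (cT r) * cB δ L r := by
  obtain ⟨-, -, ⟨-, hA⟩, hB, -⟩ := compare hp hr.le
  have hC := cosT_pos r
  have hε0 := hp.eps_pos
  have hM : 547 / 1000 * r ≤ cM r :=
    cM_ge hr.le fun t ht => capP_ge_end (cT_nonneg ht.1) (cT_le t)
  have hMS : cM r * ck = capS (cT r) * (cos (cT r))⁻¹ := by
    rw [cM]; field_simp [ck_pos.ne', hC.ne']
  have hBm : ck * r ≤ (cos (cT r))⁻¹ := by
    have h1 : sin (cT r) = ck * r * cos (cT r) := by rw [cT, sin_arctan, cos_arctan]; ring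
    rw [← mul_le_mul_iff_of_pos_right hC, inv_mul_cancel₀ hC.ne', ← h1]
    exact sin_le_one _
  set X := (cos (cT r))⁻¹
  have hr' : r ≤ 16 / 10 * X := by nlinarith [ck_lb]
  have hX : (1 - 16 / 10 * ε) * X ≤ cB δ L r := by nlinarith
  have hA' : cA δ L r ≤ (1 + 2 * ε) * cM r := by nlinarith
  have hX0 : 0 ≤ X := (inv_pos.2 hC).le
  have hS0 : 0 ≤ capS (cT r) := capS_nonneg (cT_nonneg hr.le) (cT_le r)
  calc cA δ L r * ck ≤ (1 + 2 * ε) * cM r * ck := mul_le_mul_of_nonneg_right hA' ck_pos.le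
    _ = (1 + 2 * ε) * (capS (cT r) * X) := by rw [mul_assoc, hMS]
    _ ≤ (1 + 5 * ε) * (1 - 16 / 10 * ε) * (capS (cT r) * X) :=
        mul_le_mul_of_nonneg_right (by nlinarith) (mul_nonneg hS0 hX0)
    _ = (1 + 5 * ε) * capS (cT r) * ((1 - 16 / 10 * ε) * X) := by ring
    _ ≤ _ := mul_le_mul_of_nonneg_left hX (mul_nonneg (by linarith) hS0)

theorem dip (hp : Params δ L ε) {r : ℝ} (hr : 2 * δ ≤ r) :
    (1 - cChi δ L r) * cos (cT r) ^ 2 ≤ ε := by
  rcases le_total r L with h | h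
  · rw [chi_one hp.δ_pos hr h, sub_self, zero_mul]; exact hp.eps_pos.le
  · have h0 : cT L ≤ cT r := arctan_mono (mul_le_mul_of_nonneg_left h ck_pos.le)
    have hc : cos (cT r) ≤ ε / 2 :=
      (cos_le_cos_of_nonneg_of_le_pi (cT_nonneg (le_trans zero_le_one hp.L_ge))
        (by linarith [cT_le r, pi_pos]) h0).trans hp.cosL
    have h1 : (1 - cChi δ L r) * cos (cT r) ^ 2 ≤ 1 * cos (cT r) ^ 2 :=
      mul_le_mul_of_nonneg_right (by linarith [chi_nonneg (δ := δ) (L := L) r]) (sq_nonneg _)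
    nlinarith [cosT_pos r, cos_le_one (cT r), hp.eps_pos]

/-- The cut-off increases near the core. -/
theorem chebyshev (hp : Params δ L ε) {r : ℝ} (hr : 0 ≤ r) (h1 : r ≤ 1 / 20) :
    r * cPrim (cChi δ L) r ≤ 2 * cPrim (fun u => u * cChi δ L u) r ∧
      cPrim (cChi δ L) r ≤ r * cChi δ L r := by
  have hc : Continuous (cChi δ L) := contDiff_chi.continuous
  have hL := hp.L_ge
  constructor
  · have h0 : (∫ u in (0 : ℝ)..r, (2 * u - r) * cChi δ L (r / 2)) = 0 := by
      rw [intervalIntegral.integral_mul_const, intervalIntegral.integral_sub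
        ((by fun_prop : Continuous fun u : ℝ => 2 * u).intervalIntegrable _ _)
        (continuous_const.intervalIntegrable _ _), intervalIntegral.integral_const_mul,
        integral_id, intervalIntegral.integral_const, smul_eq_mul]
      ring
    have := intervalIntegral.integral_mono_on (μ := volume) hr
      (f := fun u => (2 * u - r) * cChi δ L (r / 2)) (g := fun u => (2 * u - r) * cChi δ L u)
      ((by fun_prop : Continuous _).intervalIntegrable _ _)
      ((by fun_prop : Continuous _).intervalIntegrable _ _) fun u hu => by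
      rcases le_total (2 * u) r with h | h
      · exact mul_le_mul_of_nonpos_left (chi_mono hp.δ_pos (by linarith) (by linarith [hu.2])) (by linarith)
      · exact mul_le_mul_of_nonneg_left (chi_mono hp.δ_pos (by linarith) (by linarith [hu.2])) (by linarith)
    have e : (∫ u in (0 : ℝ)..r, (2 * u - r) * cChi δ L u) =
        2 * cPrim (fun u => u * cChi δ L u) r - r * cPrim (cChi δ L) r := by
      simp only [cPrim, ← intervalIntegral.integral_const_mul]
      rw [← intervalIntegral.integral_sub ((by fun_prop : Continuous _).intervalIntegrable _ _)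
        ((by fun_prop : Continuous _).intervalIntegrable _ _)]
      congr 1; funext u; ring
    rw [h0, e] at this
    linarith
  · have := intervalIntegral.integral_mono_on (μ := volume) hr (hc.intervalIntegrable _ _)
      (continuous_const.intervalIntegrable _ _)
      fun u hu => chi_mono (L := L) hp.δ_pos hu.2 (by linarith)
    rwa [intervalIntegral.integral_const, smul_eq_mul, sub_zero] at this

theorem dirX_small (hp : Params δ L ε) {r : ℝ} (hr : 0 < r) (h1 : r ≤ 1 / 20) :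
    0 ≤ (1 + capSlack) * (cChi δ L r * cPsi r) * cA δ L r + 2 * (1 - cA1 δ L r ^ 2) -
      3 * cA1 δ L r * cB1 δ L r * (cA δ L r / cB δ L r) := by
  obtain ⟨⟨hP, -⟩, -, ⟨hA, -⟩, -⟩ := compare hp hr.le
  have ha1 := A1_le_one (δ := δ) (L := L) hr.le
  have hP' := capP_small hr.le h1
  have hM : 998 / 1000 * r ≤ cM r := cM_ge hr.le fun t ht => capP_small ht.1 (ht.2.trans h1)
  obtain ⟨hI, hJ⟩ := chebyshev hp hr.le h1
  set I0 := cPrim (cChi δ L) r
  set I1 := cPrim (fun u => u * cChi δ L u) r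
  have hI0 : 0 ≤ I0 := intervalIntegral.integral_nonneg hr.le fun u _ => chi_nonneg u
  have hc : Continuous (cChi δ L) := contDiff_chi.continuous
  have hφ : Continuous cPhi := contDiff_phi.continuous
  have hψ : Continuous cPsi := contDiff_psi.continuous
  have hb : cB1 δ L r ≤ ck ^ 2 * I0 := by
    rw [cB1, cPrim, show ck ^ 2 * I0 = ∫ u in (0 : ℝ)..r, ck ^ 2 * cChi δ L u from
      (intervalIntegral.integral_const_mul _ _).symm]
    refine intervalIntegral.integral_mono_on hr.le ((hc.mul hφ).intervalIntegrable _ _)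
      ((continuous_const.mul hc).intervalIntegrable _ _) fun u _ => ?_
    rw [mul_comm (cChi δ L u)]
    refine mul_le_mul_of_nonneg_right ?_ (chi_nonneg u)
    exact mul_le_of_le_one_right (sq_nonneg _) (pow_le_one₀ (cosT_pos u).le (cos_le_one _))
  have ha : (1 + capSlack) * (99 / 100 * ck ^ 2 * I1) ≤ 1 - cA1 δ L r := by
    rw [cA1, sub_sub_cancel]
    refine mul_le_mul_of_nonneg_left ?_ (by norm_num [capSlack])
    rw [show 99 / 100 * ck ^ 2 * I1 = ∫ u in (0 : ℝ)..r, 99 / 100 * ck ^ 2 * (u * cChi δ L u) from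
      (intervalIntegral.integral_const_mul _ _).symm]
    refine intervalIntegral.integral_mono_on hr.le ((continuous_const.mul (continuous_id.mul hc)).intervalIntegrable _ _)
      ((hc.mul hψ).intervalIntegrable _ _) fun u hu => ?_
    have := mul_le_mul_of_nonneg_left (psi_small hu.1 (hu.2.trans h1))
      (chi_nonneg (δ := δ) (L := L) u)
    linarith
  have hq : cA δ L r / cB δ L r ≤ r :=
    (div_le_self (by linarith) (B_ge_one hr.le)).trans (A_le_self hr.le)
  have hneg : cA1 δ L r * cB1 δ L r * (cA δ L r / cB δ L r) ≤ 1 * (ck ^ 2 * I0) * r :=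
    mul_le_mul (mul_le_mul ha1 hb (B1_nonneg hr.le) zero_le_one) hq
      (div_nonneg (by linarith) (by linarith [B_ge_one (δ := δ) (L := L) hr.le]))
      (mul_nonneg zero_le_one (mul_nonneg (sq_nonneg _) hI0))
  have hχ : cChi δ L r * (99 / 100 * (ck ^ 2 * r)) * (99 / 100 * r) ≤
      cChi δ L r * cPsi r * cA δ L r :=
    mul_le_mul (mul_le_mul_of_nonneg_left (psi_small hr.le h1) (chi_nonneg r)) (by linarith)
      (by positivity) (mul_nonneg (chi_nonneg r) (psi_nonneg hr.le))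
  have hsq : 199 / 100 * (1 - cA1 δ L r) ≤ 1 - cA1 δ L r ^ 2 := by nlinarith
  rw [ck_sq] at hneg hχ ha
  norm_num [capSlack] at ha ⊢
  nlinarith [mul_le_mul_of_nonneg_left hJ hr.le]

theorem dirX_big (hp : Params δ L ε) (hε : ε ≤ 1 / 10000) {r m : ℝ} (hr : 1 / 20 ≤ r)
    (hm : 50 * ε ≤ m) (hE : m ≤ capE (cT r)) :
    0 ≤ (1 + capSlack) * (cChi δ L r * cPsi r) * cA δ L r + 2 * (1 - cA1 δ L r ^ 2) -
      3 * cA1 δ L r * cB1 δ L r * (cA δ L r / cB δ L r) := by
  have hr0 : 0 < r := by linarith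
  obtain ⟨⟨hP1, hP2⟩, ⟨-, hb⟩, ⟨hA, -⟩, -⟩ := compare hp hr0.le
  have hεp := hp.eps_pos
  have hB0 : 0 < cB δ L r := lt_of_lt_of_le one_pos (B_ge_one hr0.le)
  have hPl := capP_ge_end (cT_nonneg hr0.le) (cT_le r)
  have hPu := capP_le_one (cT_nonneg hr0.le) (cT_le r)
  have hS0 := capS_nonneg (cT_nonneg hr0.le) (cT_le r)
  have hS1 := capS_le_one (cT r)
  have hs0 := sinT_nonneg hr0.le
  have hs1 := sin_le_one (cT r)
  have hd := dip hp (r := r) (by linarith [hp.δ_small])
  set P := capP (cT r)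
  set S := capS (cT r)
  set sn := sin (cT r)
  have hq : cA δ L r / cB δ L r ≤ (1 + 5 * ε) * S / ck := by
    rw [div_le_div_iff₀ hB0 ck_pos]; exact ratio hp hε hr0
  have hneg : cA1 δ L r * cB1 δ L r * (cA δ L r / cB δ L r) ≤ P * S * sn + 7 * ε := by
    have hM0 : 0 ≤ cA δ L r :=
      le_trans (div_nonneg hS0 (mul_nonneg (cosT_pos r).le ck_pos.le)) hA
    calc _ ≤ (P + 104 / 100 * ε) * (ck * sn) * ((1 + 5 * ε) * S / ck) :=
          mul_le_mul (mul_le_mul hP2 hb (B1_nonneg hr0.le) (by linarith)) hq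
            (div_nonneg hM0 hB0.le) (mul_nonneg (by linarith) (mul_nonneg ck_pos.le hs0))
      _ = ((P + 104 / 100 * ε) * (1 + 5 * ε)) * (S * sn) := by field_simp [ck_pos.ne']
      _ ≤ (P + 7 * ε) * (S * sn) :=
          mul_le_mul_of_nonneg_right (by nlinarith) (mul_nonneg hS0 hs0)
      _ ≤ _ := by nlinarith [mul_le_one₀ hS1 hs0 hs1]
  have hχ : cos (cT r) ^ 2 * S ^ 2 - ε ≤ cChi δ L r * cPsi r * cA δ L r := by
    have e : cPsi r * cM r = cos (cT r) ^ 2 * S ^ 2 := by
      rw [cPsi, cM, show capS (cT r) = S from rfl]; field_simp [(cosT_pos r).ne', ck_pos.ne']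
    have h1 := mul_le_mul_of_nonneg_left hA (mul_nonneg (chi_nonneg (δ := δ) (L := L) r) (psi_nonneg hr0.le))
    have h2 : (1 - cChi δ L r) * cos (cT r) ^ 2 * S ^ 2 ≤ ε * 1 :=
      mul_le_mul hd (pow_le_one₀ hS0 hS1) (sq_nonneg _) hεp.le
    rw [mul_assoc, e] at h1
    linarith
  have hsq : cA1 δ L r ^ 2 ≤ P ^ 2 + 3 * ε := by nlinarith
  rw [capE] at hE
  norm_num [capSlack] at hE ⊢
  linarith

theorem dirTheta_aux (hp : Params δ L ε) (hε : ε ≤ 1 / 10000) {r m : ℝ} (hr : 0 < r)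
    (hm : 50 * ε ≤ m)
    (hF : 1 / 20 ≤ r → m ≤ capS (cT r) * (2 * (1 - ck ^ 2 * sin (cT r) ^ 2) -
      ck ^ 2 * cos (cT r) ^ 2) - 3 * ck ^ 2 * capP (cT r) * sin (cT r)) :
    0 ≤ -(cChi δ L r * cPhi r * cB δ L r) + 2 * (1 - cB1 δ L r ^ 2) -
      3 * cA1 δ L r * cB1 δ L r * (cB δ L r / cA δ L r) := by
  obtain ⟨⟨hP1, hP2⟩, ⟨-, hb⟩, ⟨hA, -⟩, -, hB⟩ := compare hp hr.le
  have hεp := hp.eps_pos
  have hC := cosT_pos r
  have hb0 := B1_nonneg (δ := δ) (L := L) hr.le
  have hB0 : 0 < cB δ L r := lt_of_lt_of_le one_pos (B_ge_one hr.le)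
  have hPl := capP_ge_end (cT_nonneg hr.le) (cT_le r)
  have hs0 := sinT_nonneg hr.le
  have hS : 0 < capS (cT r) := capS_pos (cT_pos hr) (cT_le r)
  have hM0 : 0 < cM r := div_pos hS (mul_pos hC ck_pos)
  have hbb : cChi δ L r * cPhi r * cB δ L r ≤ ck ^ 2 * cos (cT r) ^ 2 := by
    calc _ ≤ 1 * cPhi r * (cos (cT r))⁻¹ :=
          mul_le_mul (mul_le_mul_of_nonneg_right (chi_le_one r) (phi_nonneg r)) hB hB0.le
            (mul_nonneg zero_le_one (phi_nonneg r))
      _ = _ := by rw [cPhi]; field_simp [hC.ne']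
  have hb2 : cB1 δ L r ^ 2 ≤ ck ^ 2 * sin (cT r) ^ 2 := by
    rw [← mul_pow]; exact pow_le_pow_left₀ hb0 hb 2
  rcases le_total r (1 / 20) with h1 | h1
  · have hM : 998 / 1000 * r ≤ cM r := cM_ge hr.le fun t ht => capP_small ht.1 (ht.2.trans h1)
    have hC1 : (cos (cT r))⁻¹ ≤ 101 / 100 := by
      rw [inv_le_iff_one_le_mul₀ hC]; nlinarith [cosT_sq_small hr.le h1, cos_le_one (cT r)]
    have hsk : ck * sin (cT r) ≤ 394 / 1000 * r := by
      rw [← ck_sq, sq, mul_assoc]; exact mul_le_mul_of_nonneg_left (sinT_le hr.le) ck_pos.le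
    have hq : cB1 δ L r * (cB δ L r / cA δ L r) ≤ 1 / 2 := by
      rw [mul_div_assoc', div_le_iff₀ (hM0.trans_le hA)]
      nlinarith [mul_le_mul (hb.trans hsk) (hB.trans hC1) hB0.le (by positivity)]
    have hpos : 0 ≤ cB1 δ L r * (cB δ L r / cA δ L r) :=
      mul_nonneg hb0 (div_nonneg hB0.le (hM0.le.trans hA))
    have := mul_le_mul (A1_le_one (δ := δ) (L := L) hr.le) hq hpos zero_le_one
    have hc2 : cos (cT r) ^ 2 ≤ 1 := by nlinarith [cos_le_one (cT r)]
    have hb3 : cB1 δ L r ≤ 2 / 100 := by linarith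
    rw [ck_sq] at hbb
    nlinarith
  · have hF' := hF h1
    set P := capP (cT r)
    set S := capS (cT r)
    set sn := sin (cT r)
    have hneg : cA1 δ L r * cB1 δ L r * (cB δ L r / cA δ L r) ≤
        (P + 104 / 100 * ε) * (ck ^ 2 * sn / S) := by
      calc _ ≤ (P + 104 / 100 * ε) * (ck * sn) * ((cos (cT r))⁻¹ / cM r) :=
            mul_le_mul (mul_le_mul hP2 hb hb0 (by linarith))
              (div_le_div₀ (inv_pos.2 hC).le hB hM0 hA)
              (div_nonneg hB0.le (hM0.le.trans hA))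
              (mul_nonneg (by linarith) (mul_nonneg ck_pos.le hs0))
        _ = _ := by
          rw [cM, show capS (cT r) = S from rfl]
          have := hC.ne'
          have := hS.ne'
          field_simp
    have key : 0 ≤ -(ck ^ 2 * cos (cT r) ^ 2) + 2 * (1 - ck ^ 2 * sn ^ 2) -
        3 * ((P + 104 / 100 * ε) * (ck ^ 2 * sn / S)) := by
      refine nonneg_of_mul_nonneg_left (b := S) ?_ hS
      have hx : ck ^ 2 * sn ≤ 1 := by nlinarith [ck_sq, sin_le_one (cT r)]
      have : (-(ck ^ 2 * cos (cT r) ^ 2) + 2 * (1 - ck ^ 2 * sn ^ 2) -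
          3 * ((P + 104 / 100 * ε) * (ck ^ 2 * sn / S))) * S =
        S * (2 * (1 - ck ^ 2 * sn ^ 2) - ck ^ 2 * cos (cT r) ^ 2) - 3 * ck ^ 2 * P * sn -
          3 * (104 / 100 * ε) * (ck ^ 2 * sn) := by field_simp [hS.ne']; ring
      rw [this]
      nlinarith
    linarith

end Cap

end Vale.Agent.P225
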