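import Vale.Agent.P225.Metric.CapTrig

/-!
P225, module B: the model of the cap profile, primitives and the cut-off.
-/

noncomputable section

namespace Vale.Agent.P225

open scoped ContDiff

namespace Cap

open Real Set MeasureTheory

/-- The end slope of `b`. -/
def ck : ℝ := Real.sqrt (394 / 1000)

theorem ck_sq : ck ^ 2 = 394 / 1000 := Real.sq_sqrt (by norm_num)

theorem ck_lb : 6276 / 10000 ≤ ck := Real.le_sqrt_of_sq_le (by norm_num)

theorem ck_ub : ck ≤ 6278 / 10000 := Real.sqrt_le_iff.2 ⟨by norm_num, by norm_num⟩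

theorem ck_pos : 0 < ck := lt_of_lt_of_le (by norm_num) ck_lb

theorem omega_sq : capOmega ^ 2 = 2 + capSlack := Real.sq_sqrt (by norm_num [capSlack])

theorem omega_lb : 14281 / 10000 ≤ capOmega :=
  Real.le_sqrt_of_sq_le (by norm_num [capSlack])

theorem omega_pos : 0 < capOmega := lt_of_lt_of_le (by norm_num) omega_lb

theorem mono_le {f f' : ℝ → ℝ} {x y : ℝ} (hxy : x ≤ y) (h : ∀ t, HasDerivAt f (f' t) t)
    (hn : ∀ t ∈ Icc x y, 0 ≤ f' t) : f x ≤ f y :=
  monotoneOn_of_hasDerivWithinAt_nonneg (convex_Icc x y)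
    (fun t _ => (h t).continuousAt.continuousWithinAt)
    (fun t _ => (h t).hasDerivWithinAt) (fun t ht => hn t (interior_subset ht))
    (left_mem_Icc.2 hxy) (right_mem_Icc.2 hxy) hxy

/-! ### The trigonometric profile -/

theorem hasDerivAt_capS (τ : ℝ) : HasDerivAt capS (cos (capOmega * τ)) τ := by
  have h := (((hasDerivAt_id τ).const_mul capOmega).sin).div_const capOmega
  refine h.congr_deriv ?_
  simp only [id, mul_one]
  rw [mul_div_assoc, div_self omega_pos.ne', mul_one]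

theorem hasDerivAt_capP (τ : ℝ) :
    HasDerivAt capP (-(1 + capSlack) * (cos τ * capS τ)) τ := by
  have h := ((((hasDerivAt_id τ).const_mul capOmega).cos).mul (hasDerivAt_cos τ)).add
    ((hasDerivAt_sin τ).mul (hasDerivAt_capS τ))
  refine h.congr_deriv ?_
  have e : sin (capOmega * τ) = capOmega * capS τ := by
    unfold capS; field_simp [omega_pos.ne']
  simp only [id, mul_one, e]
  linear_combination (-(cos τ * capS τ)) * omega_sq

theorem capS_le_one (τ : ℝ) : capS τ ≤ 1 := by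
  unfold capS
  rw [div_le_one omega_pos]
  linarith [sin_le_one (capOmega * τ), omega_lb]

theorem capS_le_self {τ : ℝ} (h : 0 ≤ τ) : capS τ ≤ τ := by
  unfold capS
  rw [div_le_iff₀ omega_pos]
  linarith [sin_le (mul_nonneg omega_pos.le h)]

theorem capS_nonneg {τ : ℝ} (h : 0 ≤ τ) (h1 : τ ≤ π / 2) : 0 ≤ capS τ := by
  rcases eq_or_lt_of_le h with rfl | h'
  · simp [capS]
  · exact (capS_pos h' h1).le

theorem capP_ge_end {τ : ℝ} (h : 0 ≤ τ) (h1 : τ ≤ π / 2) : 547 / 1000 ≤ capP τ := by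
  have := mono_le h1 (fun t => (hasDerivAt_capP t).neg) fun t ht => by
    have hc : 0 ≤ cos t := cos_nonneg_of_mem_Icc ⟨by linarith [ht.1, pi_pos], ht.2⟩
    have hs := capS_nonneg (h.trans ht.1) ht.2
    have : (0 : ℝ) ≤ (1 + capSlack) * (cos t * capS t) :=
      mul_nonneg (by norm_num [capSlack]) (mul_nonneg hc hs)
    linarith
  simp only [Pi.neg_apply] at this
  linarith [capS_end_lb, capP_end, this]

theorem capP_sub_end {τ : ℝ} (h : 0 ≤ τ) (h1 : τ ≤ π / 2) :
    capP τ ≤ capS (π / 2) + (1 + capSlack) * (1 - sin τ) := by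
  have := mono_le h1
    (fun t => (hasDerivAt_capP t).add ((hasDerivAt_sin t).const_mul (1 + capSlack))) fun t ht => by
    have hc : 0 ≤ cos t := cos_nonneg_of_mem_Icc ⟨by linarith [ht.1, pi_pos], ht.2⟩
    have h' : (0 : ℝ) ≤ (1 + capSlack) * (cos t * (1 - capS t)) :=
      mul_nonneg (by norm_num [capSlack]) (mul_nonneg hc (by linarith [capS_le_one t]))
    linarith
  simp only [Pi.add_apply, sin_pi_div_two, capP_end] at this
  linarith

theorem capP_near_zero {τ : ℝ} (h : 0 ≤ τ) (h1 : τ ≤ π / 2) :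
    1 - 104 / 100 * τ ^ 2 ≤ capP τ := by
  have := mono_le h (fun t => (hasDerivAt_capP t).add (((hasDerivAt_id t).pow 2).const_mul
    (104 / 100 : ℝ))) fun t ht => by
    have hc : cos t ≤ 1 := cos_le_one t
    have hs := capS_nonneg ht.1 (ht.2.trans h1)
    have h' := capS_le_self ht.1
    have : cos t * capS t ≤ t := by nlinarith
    norm_num [capSlack]
    nlinarith [ht.1]
  simp [capP, capS] at this
  simp [capP, capS]
  linarith

theorem capS_end_ub : capS (π / 2) ≤ 631 / 1000 := by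
  have hω2 : capOmega ≤ 2 := by
    nlinarith [omega_sq, omega_pos, show capSlack = 1 / 25 from rfl]
  have h := sin_le (show 0 ≤ π - capOmega * (π / 2) by nlinarith [pi_pos])
  rw [sin_pi_sub] at h
  unfold capS
  rw [div_le_iff₀ omega_pos]
  nlinarith [pi_lt_d2, pi_pos, omega_lb]

/-! ### The model in the variable `r` -/

/-- The angle. -/
def cT (r : ℝ) : ℝ := arctan (ck * r)

/-- The model of `a`. -/
def cM (r : ℝ) : ℝ := capS (cT r) / (cos (cT r) * ck)

/-- The model of `b''`. -/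
def cPhi (r : ℝ) : ℝ := ck ^ 2 * cos (cT r) ^ 3

/-- The model of `-a''/(1+s)`. -/
def cPsi (r : ℝ) : ℝ := ck * cos (cT r) ^ 3 * capS (cT r)

theorem cosT_pos (r : ℝ) : 0 < cos (cT r) := cos_arctan_pos _

theorem cosT_sq (r : ℝ) : cos (cT r) ^ 2 = 1 / (1 + (ck * r) ^ 2) := by
  rw [cT, cos_arctan, div_pow, one_pow, sq_sqrt (by positivity)]

theorem cT_le (r : ℝ) : cT r ≤ π / 2 := (arctan_lt_pi_div_two _).le

theorem cT_nonneg {r : ℝ} (h : 0 ≤ r) : 0 ≤ cT r := arctan_nonneg.2 (mul_nonneg ck_pos.le h)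

theorem cT_pos {r : ℝ} (h : 0 < r) : 0 < cT r := by
  simpa [cT] using arctan_strictMono (mul_pos ck_pos h)

theorem hasDerivAt_cT (r : ℝ) : HasDerivAt cT (ck * cos (cT r) ^ 2) r := by
  refine (((hasDerivAt_id r).const_mul ck).arctan).congr_deriv ?_
  rw [cosT_sq]; simp only [id, mul_one]; ring

theorem hasDerivAt_sinT (r : ℝ) :
    HasDerivAt (fun r => sin (cT r)) (ck * cos (cT r) ^ 3) r :=
  (hasDerivAt_cT r).sin.congr_deriv (by ring)

theorem sinT_nonneg {r : ℝ} (h : 0 ≤ r) : 0 ≤ sin (cT r) :=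
  sin_arctan_nonneg.2 (mul_nonneg ck_pos.le h)

theorem sinT_le {r : ℝ} (h : 0 ≤ r) : sin (cT r) ≤ ck * r := by
  rw [cT, sin_arctan]
  refine div_le_self (mul_nonneg ck_pos.le h) ?_
  rw [Real.one_le_sqrt]; nlinarith

theorem cT_le_self {r : ℝ} (h : 0 ≤ r) : cT r ≤ ck * r := by
  have := mono_le h (fun t => ((hasDerivAt_id t).const_mul ck).sub (hasDerivAt_cT t)) fun t _ => by
    have : cos (cT t) ^ 2 ≤ 1 := by nlinarith [cos_le_one (cT t), cosT_pos t]
    have := mul_le_mul_of_nonneg_left this ck_pos.le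
    linarith
  simp [cT] at this
  simpa [cT] using this

theorem hasDerivAt_cP (r : ℝ) :
    HasDerivAt (fun r => capP (cT r)) (-(1 + capSlack) * cPsi r) r :=
  ((hasDerivAt_capP (cT r)).comp r (hasDerivAt_cT r)).congr_deriv (by rw [cPsi]; ring)

theorem hasDerivAt_cM (r : ℝ) : HasDerivAt cM (capP (cT r)) r := by
  refine (((hasDerivAt_capS (cT r)).comp r (hasDerivAt_cT r)).div
    ((hasDerivAt_cT r).cos.mul_const ck) (mul_pos (cosT_pos r) ck_pos).ne').congr_deriv ?_
  have := (cosT_pos r).ne'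
  have := ck_pos.ne'
  simp only [Function.comp_apply, capP]
  field_simp
  ring

theorem hasDerivAt_cBm (r : ℝ) : HasDerivAt (fun r => (cos (cT r))⁻¹) (ck * sin (cT r)) r :=
  ((hasDerivAt_cT r).cos.inv (cosT_pos r).ne').congr_deriv (by field_simp [(cosT_pos r).ne'])

theorem psi_nonneg {r : ℝ} (h : 0 ≤ r) : 0 ≤ cPsi r :=
  mul_nonneg (mul_nonneg ck_pos.le (pow_nonneg (cosT_pos r).le 3))
    (capS_nonneg (cT_nonneg h) (cT_le r))

theorem psi_le (r : ℝ) : cPsi r ≤ ck * cos (cT r) ^ 3 :=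
  mul_le_of_le_one_right (mul_nonneg ck_pos.le (pow_nonneg (cosT_pos r).le 3)) (capS_le_one _)

theorem phi_nonneg (r : ℝ) : 0 ≤ cPhi r :=
  mul_nonneg (sq_nonneg _) (pow_nonneg (cosT_pos r).le 3)

theorem phi_le (r : ℝ) : cPhi r ≤ ck * cos (cT r) ^ 3 := by
  refine mul_le_mul_of_nonneg_right ?_ (pow_nonneg (cosT_pos r).le 3)
  nlinarith [ck_pos, ck_ub]

theorem cM_ge {r c : ℝ} (hr : 0 ≤ r) (hc : ∀ t ∈ Icc 0 r, c ≤ capP (cT t)) : c * r ≤ cM r := by
  have := mono_le hr (fun t => (hasDerivAt_cM t).sub ((hasDerivAt_id t).const_mul c))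
    fun t ht => by linarith [hc t ht]
  simp [cM, cT, capS] at this
  simpa [cM, cT, capS] using this

theorem capP_small {r : ℝ} (h : 0 ≤ r) (h1 : r ≤ 1 / 20) : 998 / 1000 ≤ capP (cT r) := by
  have h2 := capP_near_zero (cT_nonneg h) (cT_le r)
  have h3 : cT r ≤ 3139 / 100000 := by nlinarith [cT_le_self h, ck_ub, ck_pos]
  nlinarith [cT_nonneg h]

theorem cosT_sq_small {r : ℝ} (h : 0 ≤ r) (h1 : r ≤ 1 / 20) : 999 / 1000 ≤ cos (cT r) ^ 2 := by
  rw [cosT_sq, le_div_iff₀ (by positivity), mul_pow, ck_sq]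
  nlinarith

theorem psi_small {r : ℝ} (h : 0 ≤ r) (h1 : r ≤ 1 / 20) :
    99 / 100 * (ck ^ 2 * r) ≤ cPsi r := by
  have e : cPsi r = ck ^ 2 * ((cos (cT r) ^ 2) ^ 2 * cM r) := by
    rw [cPsi, cM]; field_simp [(cosT_pos r).ne', ck_pos.ne']
  have hM : 998 / 1000 * r ≤ cM r := cM_ge h fun t ht => capP_small ht.1 (ht.2.trans h1)
  have hC : (999 / 1000 : ℝ) ^ 2 ≤ (cos (cT r) ^ 2) ^ 2 :=
    pow_le_pow_left₀ (by norm_num) (cosT_sq_small h h1) 2
  have := mul_le_mul hC hM (by positivity) (sq_nonneg _)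
  rw [e, mul_left_comm]
  exact mul_le_mul_of_nonneg_left (le_trans (by nlinarith) this) (sq_nonneg _)

theorem contDiff_cT : ContDiff ℝ ∞ cT := (contDiff_const.mul contDiff_id).arctan

theorem contDiff_phi : ContDiff ℝ ∞ cPhi := contDiff_const.mul (contDiff_cT.cos.pow 3)

theorem contDiff_psi : ContDiff ℝ ∞ cPsi :=
  (contDiff_const.mul (contDiff_cT.cos.pow 3)).mul
    ((contDiff_const.mul contDiff_cT).sin.div_const capOmega)

/-! ### Primitives and the cut-off -/

/-- Primitive from `0`. -/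
def cPrim (f : ℝ → ℝ) (r : ℝ) : ℝ := ∫ u in (0 : ℝ)..r, f u

theorem hasDerivAt_prim {f : ℝ → ℝ} (hf : Continuous f) (r : ℝ) :
    HasDerivAt (cPrim f) (f r) r := (hf.integral_hasStrictDerivAt 0 r).hasDerivAt

theorem contDiff_prim {f : ℝ → ℝ} (hf : ContDiff ℝ ∞ f) : ContDiff ℝ ∞ (cPrim f) := by
  refine contDiff_infty_iff_deriv.2 ⟨fun r => (hasDerivAt_prim hf.continuous r).differentiableAt, ?_⟩
  rwa [show deriv (cPrim f) = f from funext fun r => (hasDerivAt_prim hf.continuous r).deriv]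

theorem prim_zero (f : ℝ → ℝ) : cPrim f 0 = 0 := intervalIntegral.integral_same

theorem prim_core {f : ℝ → ℝ} {c : ℝ} (hc : 0 ≤ c) (h : ∀ u ≤ c, f u = 0) :
    ∀ r ≤ c, cPrim f r = 0 := by
  intro r hr
  have e : EqOn f (fun _ => (0 : ℝ)) (uIcc 0 r) := fun u hu =>
    h u (le_trans hu.2 (max_le hc hr))
  rw [cPrim, intervalIntegral.integral_congr e, intervalIntegral.integral_zero]

theorem prim_far {f : ℝ → ℝ} (hf : Continuous f) {c R : ℝ} (h : ∀ u, R ≤ u → f u = c) {r : ℝ}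
    (hr : R ≤ r) : cPrim f r = cPrim f R + c * (r - R) := by
  have e : EqOn f (fun _ => c) (uIcc R r) := fun u hu => by
    rw [uIcc_of_le hr] at hu; exact h u hu.1
  rw [cPrim, cPrim, ← intervalIntegral.integral_add_adjacent_intervals
    (hf.intervalIntegrable 0 R) (hf.intervalIntegrable R r), intervalIntegral.integral_congr e,
    intervalIntegral.integral_const, smul_eq_mul, mul_comm]

/-- The cut-off. -/
def cChi (δ L r : ℝ) : ℝ := smoothTransition ((r - δ) / δ) * smoothTransition (L + 1 - r)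

variable {δ L ε : ℝ}

theorem chi_nonneg (r : ℝ) : 0 ≤ cChi δ L r :=
  mul_nonneg (smoothTransition.nonneg _) (smoothTransition.nonneg _)

theorem chi_le_one (r : ℝ) : cChi δ L r ≤ 1 :=
  mul_le_one₀ (smoothTransition.le_one _) (smoothTransition.nonneg _) (smoothTransition.le_one _)

theorem contDiff_chi : ContDiff ℝ ∞ (cChi δ L) :=
  (smoothTransition.contDiff.comp ((contDiff_id.sub contDiff_const).div_const δ)).mul
    (smoothTransition.contDiff.comp (contDiff_const.sub contDiff_id))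

theorem chi_core (hδ : 0 < δ) {r : ℝ} (hr : r ≤ δ) : cChi δ L r = 0 := by
  rw [cChi, smoothTransition.zero_of_nonpos (div_nonpos_of_nonpos_of_nonneg (by linarith) hδ.le),
    zero_mul]

theorem chi_far {r : ℝ} (hr : L + 1 ≤ r) : cChi δ L r = 0 := by
  rw [cChi, smoothTransition.zero_of_nonpos (x := L + 1 - r) (by linarith), mul_zero]

theorem chi_one (hδ : 0 < δ) {r : ℝ} (h1 : 2 * δ ≤ r) (h2 : r ≤ L) : cChi δ L r = 1 := by
  rw [cChi, smoothTransition.one_of_one_le (by rw [le_div_iff₀ hδ]; linarith),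
    smoothTransition.one_of_one_le (by linarith), one_mul]

theorem chi_mono (hδ : 0 < δ) {u r : ℝ} (h : u ≤ r) (h2 : r ≤ L) :
    cChi δ L u ≤ cChi δ L r := by
  rw [cChi, cChi, smoothTransition.one_of_one_le (x := L + 1 - r) (by linarith),
    smoothTransition.one_of_one_le (x := L + 1 - u) (by linarith), mul_one, mul_one]
  exact smoothTransition.monotone (div_le_div_of_nonneg_right (by linarith) hδ.le)

/-- Parameters of the cut-off. -/
structure Params (δ L ε : ℝ) : Prop where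
  δ_pos : 0 < δ
  δ_le : δ ≤ ε / 4
  δ_small : 2 * δ ≤ 1 / 20
  L_ge : 1 ≤ L
  cosL : cos (cT L) ≤ ε / 2

theorem Params.eps_pos (hp : Params δ L ε) : 0 < ε := by linarith [hp.δ_pos, hp.δ_le]

theorem Params.sinL (hp : Params δ L ε) : 1 - ε / 2 ≤ sin (cT L) := by
  have := hp.cosL
  have hs := sinT_nonneg (le_trans zero_le_one hp.L_ge)
  nlinarith [sin_sq_add_cos_sq (cT L), cosT_pos L, cos_le_one (cT L), sin_le_one (cT L)]

/-- A cut off defect is uniformly small. -/
theorem defect_bound (hp : Params δ L ε) {e f : ℝ → ℝ}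
    (he : ∀ r, HasDerivAt e ((1 - cChi δ L r) * f r) r) (e0 : e 0 = 0)
    (hf0 : ∀ r, 0 ≤ r → 0 ≤ f r) (hf : ∀ r, 0 ≤ r → f r ≤ ck * cos (cT r) ^ 3) {r : ℝ}
    (hr : 0 ≤ r) : 0 ≤ e r ∧ e r ≤ ε := by
  have hδ := hp.δ_pos
  have hge : ∀ x y, 0 ≤ x → x ≤ y → e x ≤ e y := fun x y hx hxy =>
    mono_le hxy he fun t ht =>
      mul_nonneg (by linarith [chi_le_one (δ := δ) (L := L) t]) (hf0 t (hx.trans ht.1))
  have hle : ∀ x y, 0 ≤ x → x ≤ y → e y - e x ≤ sin (cT y) - sin (cT x) := fun x y hx hxy => by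
    have := mono_le hxy (fun t => (hasDerivAt_sinT t).sub (he t)) fun t ht => by
      have h1 := hf t (hx.trans ht.1)
      have h2 := mul_nonneg (chi_nonneg (δ := δ) (L := L) t) (hf0 t (hx.trans ht.1))
      linarith
    simp only [Pi.sub_apply] at this
    linarith
  have hmid : ∀ y, 2 * δ ≤ y → y ≤ L → e y ≤ e (2 * δ) := fun y h1 h2 => by
    have := mono_le h1 (fun t => (he t).neg) fun t ht => by
      simp [chi_one hδ ht.1 (ht.2.trans h2)]
    simp only [Pi.neg_apply] at this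
    linarith
  have hsmall : e (2 * δ) ≤ ε / 2 := by
    have h1 := hle 0 (2 * δ) le_rfl (by linarith)
    have h2 := sinT_le (show 0 ≤ 2 * δ by linarith)
    have h3 : sin (cT 0) = 0 := by simp [cT]
    nlinarith [hp.δ_le, ck_ub, ck_pos]
  refine ⟨e0 ▸ hge 0 r le_rfl hr, ?_⟩
  rcases le_total r (2 * δ) with h | h
  · linarith [hge r (2 * δ) hr h, hp.eps_pos]
  rcases le_total r L with h' | h'
  · linarith [hmid r h h', hp.eps_pos]
  · have := hmid L (by linarith [hp.δ_small, hp.L_ge]) le_rfl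
    linarith [hle L r (by linarith [hp.L_ge]) h', sin_le_one (cT r), hp.sinL]

end Cap

end Vale.Agent.P225
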